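import Vale.Agent.P134.H765.SMP
import Vale.Agent.P134.LI.Defs
import Mathlib.Analysis.SpecialFunctions.Trigonometric.DerivHyp

/-! Block LI-DEC: exponential closeness to `±1` away from the zero set, for bounded entire
solutions with `|u| < 1` (no stability is needed). -/

set_option linter.all false

namespace Vale.Agent.P134.H291

open Vale.Agent.P134 Vale.Agent.P134.H765 Filter Topology

variable {n : ℕ} {f g u v w : (Fin n → ℝ) → ℝ} {x : Fin n → ℝ} {i j : Fin n}

lemma eno_eq (z : Fin n → ℝ) : eno z = ‖(WithLp.toLp 2 z : EuclideanSpace ℝ (Fin n))‖ := by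
  rw [EuclideanSpace.norm_eq]
  unfold eno esq
  simp

lemma eno_add_le (a b : Fin n → ℝ) : eno (a + b) ≤ eno a + eno b := by
  rw [eno_eq, eno_eq, eno_eq, WithLp.toLp_add]
  exact norm_add_le _ _

lemma eno_zero : eno (0 : Fin n → ℝ) = 0 := by
  unfold eno esq; simp

lemma esq_zero : esq (0 : Fin n → ℝ) = 0 := by
  unfold esq; simp

lemma eno_neg (a : Fin n → ℝ) : eno (-a) = eno a := by
  unfold eno esq; simp

lemma eno_le_of_esq {z : Fin n → ℝ} {r : ℝ} (hr : 0 ≤ r) (h : esq z ≤ r ^ 2) : eno z ≤ r := by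
  unfold eno
  exact Real.sqrt_le_iff.mpr ⟨hr, h⟩

lemma esq_le_of_eno {z : Fin n → ℝ} {r : ℝ} (h : eno z ≤ r) : esq z ≤ r ^ 2 := by
  rw [← eno_sq]
  exact pow_le_pow_left₀ (eno_nonneg z) h 2

/-! ### derivatives of `k ∘ esq` -/

lemma esq_contDiff' {k : WithTop ℕ∞} : ContDiff ℝ k (esq : (Fin n → ℝ) → ℝ) := by
  have := esq_contDiff (n := n) (k := k) 0
  simpa using this

lemma pd_esq' (i : Fin n) (x : Fin n → ℝ) : pd i (esq : (Fin n → ℝ) → ℝ) x = 2 * x i := by
  have := pd_esq (n := n) 0 i x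
  simpa using this

/-- Laplacian of a radial function `k(|x|²)`. -/
lemma lap_radial {k k1 k2 : ℝ → ℝ} (h1 : ∀ t, 0 ≤ t → HasDerivAt k (k1 t) t)
    (h2 : ∀ t, 0 ≤ t → HasDerivAt k1 (k2 t) t) (x : Fin n → ℝ) :
    ∑ i, pd i (pd i (fun y : Fin n → ℝ => k (esq y))) x = 4 * esq x * k2 (esq x) + 2 * n * k1 (esq x) := by
  have hd : ∀ y : Fin n → ℝ, DifferentiableAt ℝ (esq : (Fin n → ℝ) → ℝ) y := fun y =>
    (esq_contDiff' (k := 1)).differentiable (by norm_num) y
  have e1 : ∀ i, pd i (fun y : Fin n → ℝ => k (esq y)) = fun y => k1 (esq y) * (2 * y i) := by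
    intro i
    funext y
    rw [pd_comp (h := k) (h1 _ (esq_nonneg y)).differentiableAt (hd y),
      (h1 _ (esq_nonneg y)).deriv, pd_esq']
  have e2 : ∀ i, pd i (pd i (fun y : Fin n → ℝ => k (esq y))) x
      = 4 * x i ^ 2 * k2 (esq x) + 2 * k1 (esq x) := by
    intro i
    rw [e1 i]
    have d1 : DifferentiableAt ℝ (fun y : Fin n → ℝ => k1 (esq y)) x :=
      (h2 _ (esq_nonneg x)).differentiableAt.comp x (hd x)
    have d2 : DifferentiableAt ℝ (fun y : Fin n → ℝ => 2 * y i) x := by fun_prop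
    rw [pd_mul d1 d2, pd_comp (h := k1) (h2 _ (esq_nonneg x)).differentiableAt (hd x),
      (h2 _ (esq_nonneg x)).deriv, pd_esq']
    have d3 : pd i (fun y : Fin n → ℝ => 2 * y i) x = 2 := by
      rw [pd_mul (f := fun _ => (2:ℝ)) (by fun_prop) (by fun_prop), pd_const, pd_coord]
      simp
    rw [d3]; ring
  simp_rw [e2]
  rw [Finset.sum_add_distrib, ← Finset.sum_mul, ← Finset.mul_sum]
  simp only [Finset.sum_const, Finset.card_univ, Fintype.card_fin, nsmul_eq_mul]
  unfold esq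
  ring

/-! ### the subsolution -/

/-- `(R² - |x|²)²`. -/
noncomputable def sb (R : ℝ) (x : Fin n → ℝ) : ℝ := (R ^ 2 - esq x) ^ 2

lemma sb_contDiff {k : WithTop ℕ∞} (R : ℝ) : ContDiff ℝ k (sb R : (Fin n → ℝ) → ℝ) := by
  unfold sb
  exact (contDiff_const.sub esq_contDiff').pow 2

lemma lap_sb (R : ℝ) (x : Fin n → ℝ) :
    ∑ i, pd i (pd i (sb R)) x = 8 * esq x - 4 * n * (R ^ 2 - esq x) := by
  have h := lap_radial (n := n) (k := fun t => (R ^ 2 - t) ^ 2) (k1 := fun t => -2 * (R ^ 2 - t))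
    (k2 := fun _ => 2) (by
      intro t _
      have h0 : HasDerivAt (fun t : ℝ => R ^ 2 - t) (-1) t := by
        simpa using (hasDerivAt_id t).const_sub (R ^ 2)
      have := h0.pow 2
      refine HasDerivAt.congr_deriv this ?_
      norm_num) (by
      intro t _
      have h0 : HasDerivAt (fun t : ℝ => R ^ 2 - t) (-1) t := by
        simpa using (hasDerivAt_id t).const_sub (R ^ 2)
      have := h0.const_mul (-2)
      refine HasDerivAt.congr_deriv this ?_
      norm_num) x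
  have e : (sb R : (Fin n → ℝ) → ℝ) = fun y => (fun t => (R ^ 2 - t) ^ 2) (esq y) := rfl
  rw [e, h]
  ring

lemma neg_lap_sb_le {R : ℝ} (hR : 0 < R) (x : Fin n → ℝ) :
    -∑ i, pd i (pd i (sb R)) x ≤ (n + 2) ^ 2 / (2 * R ^ 2) * sb R x := by
  rw [lap_sb]
  unfold sb
  set w := R ^ 2 - esq x with hw
  have he : esq x = R ^ 2 - w := by rw [hw]; ring
  rw [he]
  have hR2 : 0 < R ^ 2 := by positivity
  rw [div_mul_eq_mul_div, le_div_iff₀ (by positivity)]
  nlinarith [sq_nonneg ((n + 2) * w - 4 * R ^ 2)]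

lemma isCompact_ball (R : ℝ) : IsCompact {x : Fin n → ℝ | esq x ≤ R ^ 2} := by
  have := isCompact_esq_le (n := n) 0 (R ^ 2)
  simpa using this

lemma ball_mem_nhds {R : ℝ} {x : Fin n → ℝ} (h : esq x < R ^ 2) : {x : Fin n → ℝ | esq x ≤ R ^ 2} ∈ 𝓝 x := by
  have : IsOpen {x : Fin n → ℝ | esq x < R ^ 2} := isOpen_lt continuous_esq continuous_const
  exact Filter.mem_of_superset (this.mem_nhds h) fun y (hy : esq y < R ^ 2) => (hy.le : esq y ≤ R ^ 2)

/-- (D1), positive case at the origin. -/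
lemma lower_center (hu : Sol u) {R : ℝ} (hR : 0 < R) (h : ∀ x, esq x ≤ R ^ 2 → 0 < u x) :
    1 - (n + 2) ^ 2 / (2 * R ^ 2) ≤ u 0 ^ 2 := by
  set K : Set (Fin n → ℝ) := {x | esq x ≤ R ^ 2} with hK
  have h0K : (0 : Fin n → ℝ) ∈ K := by
    rw [hK, Set.mem_setOf_eq, esq_zero]; positivity
  have hcont : ContinuousOn (fun x => sb R x / u x) K := by
    apply ContinuousOn.div (sb_contDiff (k := 0) R).continuous.continuousOn
      hu.c2.continuous.continuousOn
    intro x hx
    exact (h x hx).ne'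
  obtain ⟨x1, hx1, hmax⟩ := (isCompact_ball R).exists_isMaxOn ⟨0, h0K⟩ hcont
  have hu0 := h 0 h0K
  have hu1 := h x1 hx1
  set M := sb R x1 / u x1 with hM
  have hs0 : sb R (0 : Fin n → ℝ) = R ^ 4 := by
    unfold sb; rw [esq_zero]; ring
  have hMpos : 0 < M := by
    have h2 : sb R (0 : Fin n → ℝ) / u 0 ≤ M := hmax h0K
    have h3 : 0 < sb R (0 : Fin n → ℝ) / u 0 := by rw [hs0]; positivity
    linarith
  have hint : esq x1 < R ^ 2 := by
    rcases lt_or_eq_of_le (show esq x1 ≤ R ^ 2 from hx1) with h2 | h2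
    · exact h2
    · exfalso
      have : sb R x1 = 0 := by unfold sb; rw [h2]; ring
      rw [hM, this, zero_div] at hMpos
      exact lt_irrefl _ hMpos
  -- `M u - sb ≥ 0` on the ball with equality at `x1`
  have hge : ∀ x ∈ K, 0 ≤ M * u x - sb R x := by
    intro x hx
    have h2 : sb R x / u x ≤ M := hmax hx
    rw [div_le_iff₀ (h x hx)] at h2
    linarith
  have heq : M * u x1 - sb R x1 = 0 := by
    rw [hM]; field_simp; ring
  have hloc : IsLocalMin (fun x => M * u x - sb R x) x1 := by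
    filter_upwards [ball_mem_nhds hint] with x hx
    rw [heq]
    exact hge x hx
  have hc2 : ContDiff ℝ 2 (fun x => M * u x - sb R x) :=
    (contDiff_const.mul hu.c2).sub (sb_contDiff R)
  have hsum : 0 ≤ ∑ i, pd i (pd i (fun x => M * u x - sb R x)) x1 :=
    Finset.sum_nonneg fun i _ => pd2_nonneg_of_isLocalMin hc2 hloc i
  have hd : Differentiable ℝ u := hu.c2.differentiable (by norm_num)
  have hds : Differentiable ℝ (sb R : (Fin n → ℝ) → ℝ) := (sb_contDiff (k := 1) R).differentiable (by norm_num)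
  have e1 : ∀ i, pd i (pd i (fun x => M * u x - sb R x)) x1
      = M * pd i (pd i u) x1 - pd i (pd i (sb R)) x1 := by
    intro i
    have e2 : pd i (fun x => M * u x - sb R x) = fun x => M * pd i u x - pd i (sb R) x := by
      funext x
      rw [pd_sub ((hd x).const_mul M) (hds x), pd_mul (f := fun _ => M) (by fun_prop) (hd x), pd_const]
      ring
    rw [e2]
    have d3 : DifferentiableAt ℝ (pd i u) x1 := (contDiff_pd_one hu.c2).differentiable (by norm_num) x1
    have d4 : DifferentiableAt ℝ (pd i (sb R)) x1 :=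
      (contDiff_pd_one (sb_contDiff R)).differentiable (by norm_num) x1
    rw [pd_sub (d3.const_mul M) d4, pd_mul (f := fun _ => M) (by fun_prop) d3, pd_const]
    ring
  simp_rw [e1] at hsum
  rw [Finset.sum_sub_distrib, ← Finset.mul_sum, hu.eq] at hsum
  have h5 := neg_lap_sb_le hR x1
  set lam := ((n:ℝ) + 2) ^ 2 / (2 * R ^ 2) with hlam
  have h6 : sb R x1 = M * u x1 := by linarith
  rw [h6] at h5
  have h7 : 0 ≤ M * (u x1 ^ 3 - u x1) + lam * (M * u x1) := by linarith
  have h8 : 0 ≤ (M * u x1) * (u x1 ^ 2 - 1 + lam) := by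
    have : (M * u x1) * (u x1 ^ 2 - 1 + lam) = M * (u x1 ^ 3 - u x1) + lam * (M * u x1) := by ring
    rw [this]; exact h7
  have h9 : 0 ≤ u x1 ^ 2 - 1 + lam := by
    by_contra hc
    push Not at hc
    have : (M * u x1) * (u x1 ^ 2 - 1 + lam) < 0 := mul_neg_of_pos_of_neg (by positivity) hc
    linarith
  -- `u 0 ≥ R^4/M ≥ u x1`
  have h10 : R ^ 4 ≤ M * u 0 := by
    have := hge 0 h0K
    rw [hs0] at this
    linarith
  have h11 : sb R x1 ≤ R ^ 4 := by
    unfold sb
    have h12 := esq_nonneg x1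
    have h13 : 0 ≤ R ^ 2 - esq x1 := by linarith
    have h14 : R ^ 2 - esq x1 ≤ R ^ 2 := by linarith
    calc (R ^ 2 - esq x1) ^ 2 ≤ (R ^ 2) ^ 2 := pow_le_pow_left₀ h13 h14 2
      _ = R ^ 4 := by ring
  have h15 : u x1 ≤ u 0 := by
    have : M * u x1 ≤ M * u 0 := by linarith
    exact le_of_mul_le_mul_left this hMpos
  have h16 : u x1 ^ 2 ≤ u 0 ^ 2 := pow_le_pow_left₀ hu1.le h15 2
  linarith

/-- (D1), positive case. -/
lemma lower_pos (hu : Sol u) {R : ℝ} (hR : 0 < R) (z : Fin n → ℝ)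
    (h : ∀ y, eno (z - y) ≤ R → 0 < u y) : 1 - (n + 2) ^ 2 / (2 * R ^ 2) ≤ u z ^ 2 := by
  have := lower_center (hu.translate z) hR (by
    intro x hx
    apply h
    have : z - (x + z) = -x := by abel
    rw [this, eno_neg]
    exact eno_le_of_esq hR.le hx)
  simpa using this

/-! ### the barrier -/

/-- `cosh (μ √(A² + |x|²))`. -/
noncomputable def hb (μ A : ℝ) (x : Fin n → ℝ) : ℝ := Real.cosh (μ * Real.sqrt (A ^ 2 + esq x))

lemma hb_contDiff {μ A : ℝ} (hA : 0 < A) : ContDiff ℝ 2 (hb μ A : (Fin n → ℝ) → ℝ) := by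
  unfold hb
  apply Real.contDiff_cosh.comp
  apply ContDiff.mul contDiff_const
  apply ContDiff.sqrt
  · exact contDiff_const.add esq_contDiff'
  · intro x
    have := esq_nonneg x
    positivity

lemma lap_hb_le {μ A : ℝ} (hμ : 0 < μ) (hA : 0 < A) (x : Fin n → ℝ) :
    ∑ i, pd i (pd i (hb μ A)) x ≤ (μ ^ 2 + n * μ / A) * hb μ A x := by
  have hpos : ∀ t : ℝ, 0 ≤ t → 0 < A ^ 2 + t := fun t ht => by positivity
  have hs : ∀ t : ℝ, 0 ≤ t → HasDerivAt (fun t => Real.sqrt (A ^ 2 + t)) (1 / (2 * Real.sqrt (A ^ 2 + t))) t := by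
    intro t ht
    have h1 : HasDerivAt (fun t : ℝ => A ^ 2 + t) 1 t := by
      simpa using (hasDerivAt_id t).const_add (A ^ 2)
    have := h1.sqrt (hpos t ht).ne'
    simpa using this
  have h := lap_radial (n := n) (k := fun t => Real.cosh (μ * Real.sqrt (A ^ 2 + t)))
    (k1 := fun t => μ * Real.sinh (μ * Real.sqrt (A ^ 2 + t)) / (2 * Real.sqrt (A ^ 2 + t)))
    (k2 := fun t => μ ^ 2 * Real.cosh (μ * Real.sqrt (A ^ 2 + t)) / (4 * (A ^ 2 + t))
      - μ * Real.sinh (μ * Real.sqrt (A ^ 2 + t)) / (4 * (A ^ 2 + t) * Real.sqrt (A ^ 2 + t)))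
    (by
      intro t ht
      have h1 := ((hs t ht).const_mul μ).cosh
      refine HasDerivAt.congr_deriv h1 ?_
      have := Real.sqrt_pos.mpr (hpos t ht)
      field_simp)
    (by
      intro t ht
      have hsp := Real.sqrt_pos.mpr (hpos t ht)
      have h1 := (((hs t ht).const_mul μ).sinh.const_mul μ).div ((hs t ht).const_mul 2)
        (by positivity)
      refine HasDerivAt.congr_deriv h1 ?_
      have hsq : Real.sqrt (A ^ 2 + t) ^ 2 = A ^ 2 + t := Real.sq_sqrt (hpos t ht).le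
      set s := Real.sqrt (A ^ 2 + t) with hsdef
      rw [← hsq]
      field_simp
      ring) x
  have e : (hb μ A : (Fin n → ℝ) → ℝ) = fun y => (fun t => Real.cosh (μ * Real.sqrt (A ^ 2 + t))) (esq y) := rfl
  rw [e, h]
  simp only
  have he := esq_nonneg x
  set t := esq x with ht
  have hp := hpos t he
  have hsp := Real.sqrt_pos.mpr hp
  have hsq : Real.sqrt (A ^ 2 + t) ^ 2 = A ^ 2 + t := Real.sq_sqrt hp.le
  have hAs : A ≤ Real.sqrt (A ^ 2 + t) := Real.le_sqrt_of_sq_le (by linarith)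
  set s := Real.sqrt (A ^ 2 + t) with hsdef
  have hsinh : 0 ≤ Real.sinh (μ * s) := Real.sinh_nonneg_iff.mpr (by positivity)
  have hcs : Real.sinh (μ * s) ≤ Real.cosh (μ * s) := (Real.sinh_lt_cosh _).le
  have hcosh := Real.cosh_pos (μ * s)
  rw [← hsq]
  have h1 : 4 * t * (μ ^ 2 * Real.cosh (μ * s) / (4 * s ^ 2) - μ * Real.sinh (μ * s) / (4 * s ^ 2 * s))
      ≤ μ ^ 2 * Real.cosh (μ * s) := by
    have h2 : 4 * t * (μ ^ 2 * Real.cosh (μ * s) / (4 * s ^ 2)) ≤ μ ^ 2 * Real.cosh (μ * s) := by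
      rw [mul_div_assoc', div_le_iff₀ (by positivity)]
      have h3 : t ≤ s ^ 2 := by rw [hsq]; nlinarith
      have h4 : 0 ≤ μ ^ 2 * Real.cosh (μ * s) := by positivity
      nlinarith
    have h5 : 0 ≤ 4 * t * (μ * Real.sinh (μ * s) / (4 * s ^ 2 * s)) := by positivity
    rw [mul_sub]
    linarith
  have h6 : 2 * n * (μ * Real.sinh (μ * s) / (2 * s)) ≤ n * μ / A * Real.cosh (μ * s) := by
    have h7 : 2 * n * (μ * Real.sinh (μ * s) / (2 * s)) = n * μ * Real.sinh (μ * s) / s := by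
      field_simp
    rw [h7, div_mul_eq_mul_div]
    have h8 : n * μ * Real.sinh (μ * s) ≤ n * μ * Real.cosh (μ * s) :=
      mul_le_mul_of_nonneg_left hcs (by positivity)
    calc n * μ * Real.sinh (μ * s) / s ≤ n * μ * Real.cosh (μ * s) / s :=
          div_le_div_of_nonneg_right h8 hsp.le
      _ ≤ n * μ * Real.cosh (μ * s) / A :=
          div_le_div_of_nonneg_left (by positivity) hA hAs
  calc _ ≤ μ ^ 2 * Real.cosh (μ * s) + n * μ / A * Real.cosh (μ * s) := add_le_add h1 h6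
    _ = (μ ^ 2 + n * μ / A) * Real.cosh (μ * s) := by ring

/-- Decay at the centre of a ball on which `u > 0`, `u² ≥ 1 - lam`. -/
lemma decay_ball (hu : Sol u) {μ A lam r : ℝ} (hμ : 0 < μ) (hA : 0 < A) (hl : 0 ≤ lam)
    (hr : 0 ≤ r) (hml : μ ^ 2 + n * μ / A ≤ 2 - 3 * lam)
    (hpos : ∀ x, esq x ≤ r ^ 2 → 0 < u x) (hlow : ∀ x, esq x ≤ r ^ 2 → 1 - lam ≤ u x ^ 2) :
    1 - u 0 ≤ 2 * Real.cosh (μ * A) * Real.exp (-(μ * r)) := by
  set H := Real.cosh (μ * Real.sqrt (A ^ 2 + r ^ 2)) with hH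
  have hHpos : 0 < H := Real.cosh_pos _
  have hm0 : 0 < μ ^ 2 + n * μ / A := by positivity
  have hl1 : lam < 1 := by linarith
  set F : (Fin n → ℝ) → ℝ := fun x => (1 - u x) - hb μ A x * H⁻¹ with hF
  have hFc : ContDiff ℝ 2 F := (contDiff_const.sub hu.c2).sub ((hb_contDiff hA).mul contDiff_const)
  set K : Set (Fin n → ℝ) := {x | esq x ≤ r ^ 2} with hK
  have h0K : (0 : Fin n → ℝ) ∈ K := by
    rw [hK, Set.mem_setOf_eq, esq_zero]; positivity
  obtain ⟨x1, hx1, hmax⟩ := (isCompact_ball r).exists_isMaxOn ⟨0, h0K⟩ hFc.continuous.continuousOn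
  have hle : F x1 ≤ 0 := by
    by_contra hcon
    push Not at hcon
    have hu1 := hpos x1 hx1
    have hl2 := hlow x1 hx1
    rcases lt_or_eq_of_le (show esq x1 ≤ r ^ 2 from hx1) with hlt | heq
    · have hloc : IsLocalMax F x1 := hmax.isLocalMax (ball_mem_nhds hlt)
      have h2 : ∑ i, pd i (pd i F) x1 ≤ 0 := Finset.sum_nonpos fun i _ =>
        pd2_nonpos_of_isLocalMax hFc hloc i
      have hd : Differentiable ℝ u := hu.c2.differentiable (by norm_num)
      have hdb : Differentiable ℝ (hb μ A : (Fin n → ℝ) → ℝ) :=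
        (hb_contDiff hA).differentiable (by norm_num)
      have e1 : ∀ i, pd i (pd i F) x1 = - pd i (pd i u) x1 - H⁻¹ * pd i (pd i (hb μ A)) x1 := by
        intro i
        have e2 : pd i F = fun x => (0 - pd i u x) - H⁻¹ * pd i (hb μ A) x := by
          funext x
          show pd i (fun x => (1 - u x) - hb μ A x * H⁻¹) x = _
          rw [pd_sub (f := fun x => 1 - u x) (g := fun x => hb μ A x * H⁻¹)
            ((differentiableAt_const (1:ℝ)).sub (hd x)) ((hdb x).mul_const _),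
            pd_sub (differentiableAt_const _) (hd x), pd_const,
            pd_mul (hdb x) (differentiableAt_const _), pd_const]
          ring
        rw [e2]
        have d3 : DifferentiableAt ℝ (pd i u) x1 := (contDiff_pd_one hu.c2).differentiable (by norm_num) x1
        have d4 : DifferentiableAt ℝ (pd i (hb μ A)) x1 :=
          (contDiff_pd_one (hb_contDiff hA)).differentiable (by norm_num) x1
        rw [pd_sub (f := fun x => 0 - pd i u x) (g := fun x => H⁻¹ * pd i (hb μ A) x)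
          ((differentiableAt_const (0:ℝ)).sub d3) (d4.const_mul _),
          pd_sub (differentiableAt_const _) d3, pd_const,
          pd_mul (differentiableAt_const _) d4, pd_const]
        ring
      simp_rw [e1] at h2
      rw [Finset.sum_sub_distrib, Finset.sum_neg_distrib, hu.eq, ← Finset.mul_sum] at h2
      have h3 := lap_hb_le hμ hA x1
      have h4 : hb μ A x1 * H⁻¹ < 1 - u x1 := by
        have : F x1 = (1 - u x1) - hb μ A x1 * H⁻¹ := rfl
        rw [this] at hcon
        linarith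
      have hbpos : 0 < hb μ A x1 := Real.cosh_pos _
      have hHi : 0 < H⁻¹ := inv_pos.mpr hHpos
      have h5 : H⁻¹ * ∑ i, pd i (pd i (hb μ A)) x1 ≤ (2 - 3 * lam) * (hb μ A x1 * H⁻¹) := by
        calc H⁻¹ * ∑ i, pd i (pd i (hb μ A)) x1 ≤ H⁻¹ * ((μ ^ 2 + n * μ / A) * hb μ A x1) :=
              mul_le_mul_of_nonneg_left h3 hHi.le
          _ ≤ H⁻¹ * ((2 - 3 * lam) * hb μ A x1) := by
              apply mul_le_mul_of_nonneg_left _ hHi.le
              exact mul_le_mul_of_nonneg_right hml hbpos.le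
          _ = _ := by ring
      have hb1 := abs_le.mp (hu.bd x1)
      have h6 : 1 - lam ≤ u x1 := by nlinarith
      have h7 : (2 - 3 * lam) * (1 - u x1) ≤ u x1 - u x1 ^ 3 := by
        have e : u x1 - u x1 ^ 3 = (u x1 * (1 + u x1)) * (1 - u x1) := by ring
        rw [e]
        apply mul_le_mul_of_nonneg_right _ (by linarith)
        nlinarith
      have h8 : 0 < 2 - 3 * lam := lt_of_lt_of_le hm0 hml
      have h9 : (2 - 3 * lam) * (hb μ A x1 * H⁻¹) < (2 - 3 * lam) * (1 - u x1) :=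
        mul_lt_mul_of_pos_left h4 h8
      linarith
    · have : hb μ A x1 = H := by unfold hb; rw [heq]
      simp only [hF] at hcon
      rw [this, mul_inv_cancel₀ hHpos.ne'] at hcon
      linarith
  have h1 : F 0 ≤ 0 := (hmax h0K).trans hle
  have h2 : hb μ A (0 : Fin n → ℝ) = Real.cosh (μ * A) := by
    unfold hb
    rw [esq_zero, add_zero, Real.sqrt_sq hA.le]
  have h3 : 1 - u 0 ≤ Real.cosh (μ * A) * H⁻¹ := by
    have : F 0 = (1 - u 0) - hb μ A (0 : Fin n → ℝ) * H⁻¹ := rfl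
    rw [this, h2] at h1
    linarith
  have h4 : H⁻¹ ≤ 2 * Real.exp (-(μ * r)) := by
    rw [inv_le_comm₀ hHpos (by positivity), mul_inv, Real.exp_neg, inv_inv]
    have h5 : r ≤ Real.sqrt (A ^ 2 + r ^ 2) := Real.le_sqrt_of_sq_le (by nlinarith [sq_nonneg A])
    have h6 : Real.exp (μ * r) ≤ Real.exp (μ * Real.sqrt (A ^ 2 + r ^ 2)) :=
      Real.exp_le_exp.mpr (mul_le_mul_of_nonneg_left h5 hμ.le)
    rw [hH, Real.cosh_eq]
    have := Real.exp_pos (-(μ * Real.sqrt (A ^ 2 + r ^ 2)))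
    linarith
  calc 1 - u 0 ≤ Real.cosh (μ * A) * H⁻¹ := h3
    _ ≤ Real.cosh (μ * A) * (2 * Real.exp (-(μ * r))) :=
        mul_le_mul_of_nonneg_left h4 (Real.cosh_pos _).le
    _ = _ := by ring

/-- A continuous function without zeros on an open ball has constant sign. -/
lemma sign_const (hc : Continuous u) (z : Fin n → ℝ) {L : ℝ} (hL : 0 < L)
    (h : ∀ y, eno (z - y) < L → u y ≠ 0) :
    (∀ y, eno (z - y) < L → 0 < u y) ∨ (∀ y, eno (z - y) < L → u y < 0) := by
  have key : ∀ y, eno (z - y) < L → 0 < u z * u y := by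
    intro y hy
    by_contra hcon
    push Not at hcon
    -- intermediate value on the segment
    have hcont : ContinuousOn (fun t : ℝ => u z * u (z + t • (y - z))) (Set.Icc 0 1) := by
      apply Continuous.continuousOn
      fun_prop
    have h0 : u z * u (z + (0:ℝ) • (y - z)) = u z * u z := by simp
    have h1 : u z * u (z + (1:ℝ) • (y - z)) = u z * u y := by simp
    have hz : u z ≠ 0 := h z (by simpa [eno_zero] using hL)
    have hmem : (0:ℝ) ∈ Set.Icc (u z * u (z + (1:ℝ) • (y - z))) (u z * u (z + (0:ℝ) • (y - z))) := by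
      rw [h0, h1]
      exact ⟨hcon, (mul_self_pos.mpr hz).le⟩
    obtain ⟨t, ht, hteq⟩ := intermediate_value_Icc' (zero_le_one) hcont hmem
    have hne := h (z + t • (y - z)) (by
      have : z - (z + t • (y - z)) = t • (z - y) := by
        ext i; simp; ring
      rw [this]
      have h2 : eno (t • (z - y)) = t * eno (z - y) := by
        rw [eno_eq, eno_eq, WithLp.toLp_smul, norm_smul, Real.norm_eq_abs, abs_of_nonneg ht.1]
      rw [h2]
      have := eno_nonneg (z - y)
      nlinarith [ht.1, ht.2])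
    simp only at hteq
    rcases mul_eq_zero.mp hteq with h3 | h3
    · exact hz h3
    · exact hne h3
  have hz : u z ≠ 0 := h z (by simpa [eno_zero] using hL)
  rcases lt_or_gt_of_ne hz with h1 | h1
  · right
    intro y hy
    have := key y hy
    by_contra hc2
    push Not at hc2
    have : u z * u y ≤ 0 := mul_nonpos_of_nonpos_of_nonneg h1.le hc2
    linarith
  · left
    intro y hy
    have h3 := key y hy
    by_contra hc2
    push Not at hc2
    have : u z * u y ≤ 0 := mul_nonpos_of_nonneg_of_nonpos h1.le hc2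
    linarith

/-- (D1). -/
theorem lower (hu : Sol u) {R : ℝ} (hR : 0 < R) (z : Fin n → ℝ)
    (hop : ∀ y, eno (z - y) < R → u y ≠ 0) :
    1 - (n + 2) ^ 2 / (2 * R ^ 2) ≤ u z ^ 2 := by
  -- a slightly larger ball is not available: use all smaller radii
  have key : ∀ r, 0 < r → r < R → 1 - (n + 2) ^ 2 / (2 * r ^ 2) ≤ u z ^ 2 := by
    intro r hr hrR
    rcases sign_const hu.c2.continuous z hR hop with h1 | h1
    · exact lower_pos hu hr z fun y hy => h1 y (lt_of_le_of_lt hy hrR)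
    · have := lower_pos hu.neg hr z fun y hy => by
        have := h1 y (lt_of_le_of_lt hy hrR)
        show 0 < - u y
        linarith
      simpa using this
  have hcont : ContinuousAt (fun r : ℝ => 1 - ((n:ℝ) + 2) ^ 2 / (2 * r ^ 2)) R := by
    apply ContinuousAt.sub continuousAt_const
    apply ContinuousAt.div continuousAt_const (by fun_prop)
    positivity
  have hlim : Tendsto (fun r : ℝ => 1 - ((n:ℝ) + 2) ^ 2 / (2 * r ^ 2)) (𝓝[<] R)
      (𝓝 (1 - ((n:ℝ) + 2) ^ 2 / (2 * R ^ 2))) := hcont.tendsto.mono_left nhdsWithin_le_nhds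
  refine le_of_tendsto hlim ?_
  filter_upwards [Ioo_mem_nhdsLT hR] with r hr using key r hr.1 hr.2

/-- The exponential decay, positive case, with explicit constants. -/
lemma decay_pos (hu : Sol u) {μ A lam ρ L : ℝ} (hμ : 0 < μ) (hA : 0 < A) (hρ : 0 < ρ)
    (hl : lam = (n + 2) ^ 2 / (2 * ρ ^ 2)) (hml : μ ^ 2 + n * μ / A ≤ 2 - 3 * lam)
    (hL : ρ < L) (z : Fin n → ℝ) (h : ∀ y, eno (z - y) < L → 0 < u y) :
    1 - u z ≤ 2 * Real.cosh (μ * A) * Real.exp (μ * ρ) * Real.exp (-(μ * L)) := by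
  have hl0 : 0 ≤ lam := by rw [hl]; positivity
  have key : ∀ r, 0 ≤ r → r < L - ρ → 1 - u z ≤ 2 * Real.cosh (μ * A) * Real.exp (-(μ * r)) := by
    intro r hr hrL
    have := decay_ball (hu.translate z) hμ hA hl0 hr hml (by
      intro x hx
      apply h
      have e : z - (x + z) = -x := by abel
      rw [e, eno_neg]
      have := eno_le_of_esq hr hx
      linarith) (by
      intro x hx
      have h1 := lower_pos hu hρ (x + z) (by
        intro y hy
        apply h
        have e : z - y = (-x) + (x + z - y) := by abel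
        rw [e]
        have h2 := eno_add_le (-x) (x + z - y)
        rw [eno_neg] at h2
        have h3 := eno_le_of_esq hr hx
        linarith)
      rw [hl]; exact h1)
    simpa using this
  have hcont : Continuous (fun r : ℝ => 2 * Real.cosh (μ * A) * Real.exp (-(μ * r))) := by fun_prop
  have hlim : Tendsto (fun r : ℝ => 2 * Real.cosh (μ * A) * Real.exp (-(μ * r))) (𝓝[<] (L - ρ))
      (𝓝 (2 * Real.cosh (μ * A) * Real.exp (-(μ * (L - ρ))))) :=
    (hcont.tendsto _).mono_left nhdsWithin_le_nhds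
  have h1 : 1 - u z ≤ 2 * Real.cosh (μ * A) * Real.exp (-(μ * (L - ρ))) := by
    refine ge_of_tendsto hlim ?_
    filter_upwards [Ioo_mem_nhdsLT (show (0:ℝ) < L - ρ by linarith)] with r hr
      using key r hr.1.le hr.2
  have e : -(μ * (L - ρ)) = μ * ρ + -(μ * L) := by ring
  rw [e, Real.exp_add] at h1
  linarith

/-- (D2): exponential decay of `1 - u²` away from the zero set. -/
theorem dec_psi (n : ℕ) (e : ℝ) (he : 0 < e) : ∃ C : ℝ, 0 < C ∧ ∀ u : (Fin n → ℝ) → ℝ, Sol u →
    ∀ (x : Fin n → ℝ) (L : ℝ), 0 ≤ L → (∀ y, eno (x - y) < L → u y ≠ 0) →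
    1 - u x ^ 2 ≤ C * Real.exp (-((Real.sqrt 2 - e) * L)) := by
  have hs2 : Real.sqrt 2 ^ 2 = 2 := Real.sq_sqrt (by norm_num)
  have hs0 : 0 < Real.sqrt 2 := by positivity
  -- reduce to `e ≤ 1`
  set e' := min e 1 with he'
  have he'0 : 0 < e' := lt_min he one_pos
  have he'1 : e' ≤ 1 := min_le_right _ _
  have hs1 : 1 < Real.sqrt 2 := by
    rw [show (1:ℝ) = Real.sqrt 1 by simp]
    exact Real.sqrt_lt_sqrt (by norm_num) (by norm_num)
  set μ := Real.sqrt 2 - e' with hμ
  have hμ0 : 0 < μ := by linarith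
  set gap := 2 - μ ^ 2 with hgap
  have hgap0 : 0 < gap := by
    have : gap = e' * (2 * Real.sqrt 2 - e') := by
      rw [hgap, hμ]; ring_nf; rw [hs2]; ring
    rw [this]
    apply mul_pos he'0
    linarith
  -- choose A and ρ
  set A := 2 * (n + 1) * μ / gap with hA
  have hA0 : 0 < A := by positivity
  have hnA : n * μ / A ≤ gap / 2 := by
    rw [hA]
    rw [div_le_iff₀ (by positivity)]
    have : gap / 2 * (2 * (n + 1) * μ / gap) = (n + 1) * μ := by field_simp
    rw [this]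
    nlinarith
  set ρ := Real.sqrt (3 * (n + 2) ^ 2 / gap) with hρ
  have hρ0 : 0 < ρ := by
    rw [hρ]; apply Real.sqrt_pos.mpr; positivity
  have hρ2 : ρ ^ 2 = 3 * (n + 2) ^ 2 / gap := Real.sq_sqrt (by positivity)
  set lam := ((n:ℝ) + 2) ^ 2 / (2 * ρ ^ 2) with hlam
  have hlam' : 3 * lam = gap / 2 := by
    rw [hlam, hρ2]
    field_simp
  have hml : μ ^ 2 + n * μ / A ≤ 2 - 3 * lam := by
    rw [hlam']
    linarith
  set C := 2 * (2 * Real.cosh (μ * A) * Real.exp (μ * ρ)) with hC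
  have hC1 : 1 ≤ C * Real.exp (-(μ * ρ)) := by
    rw [hC]
    have h1 : 2 * (2 * Real.cosh (μ * A) * Real.exp (μ * ρ)) * Real.exp (-(μ * ρ))
        = 4 * Real.cosh (μ * A) * (Real.exp (μ * ρ) * Real.exp (-(μ * ρ))) := by ring
    rw [h1, ← Real.exp_add, add_neg_cancel, Real.exp_zero]
    have := Real.one_le_cosh (μ * A)
    linarith
  have hCpos : 0 < C := by
    have := Real.cosh_pos (μ * A)
    positivity
  have main : ∀ u : (Fin n → ℝ) → ℝ, Sol u →
      ∀ (x : Fin n → ℝ) (L : ℝ), (∀ y, eno (x - y) < L → u y ≠ 0) →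
      1 - u x ^ 2 ≤ C * Real.exp (-(μ * L)) := by
    intro u hu x L h
    rcases le_or_gt L ρ with hL | hL
    · have h1 : Real.exp (-(μ * ρ)) ≤ Real.exp (-(μ * L)) := by
        apply Real.exp_le_exp.mpr
        nlinarith
      have h2 : C * Real.exp (-(μ * ρ)) ≤ C * Real.exp (-(μ * L)) :=
        mul_le_mul_of_nonneg_left h1 hCpos.le
      nlinarith [sq_nonneg (u x)]
    · rcases sign_const hu.c2.continuous x (hρ0.trans hL) h with h1 | h1
      · have h2 := decay_pos hu hμ0 hA0 hρ0 hlam hml hL x h1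
        have h3 := h1 x (by rw [sub_self, eno_zero]; linarith)
        have h4 := (abs_le.mp (hu.bd x)).2
        have h5 : 1 - u x ^ 2 = (1 - u x) * (1 + u x) := by ring
        rw [h5, hC]
        have h6 : (1 - u x) * (1 + u x) ≤ (1 - u x) * 2 :=
          mul_le_mul_of_nonneg_left (by linarith) (by linarith)
        linarith
      · have h2 := decay_pos hu.neg hμ0 hA0 hρ0 hlam hml hL x (fun y hy => by
          have := h1 y hy
          show 0 < - u y
          linarith)
        have h3 := h1 x (by rw [sub_self, eno_zero]; linarith)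
        have h4 := (abs_le.mp (hu.bd x)).1
        have h5 : 1 - u x ^ 2 = (1 - -u x) * (1 + -u x) := by ring
        rw [h5, hC]
        have h6 : (1 - -u x) * (1 + -u x) ≤ (1 - -u x) * 2 :=
          mul_le_mul_of_nonneg_left (by linarith) (by linarith)
        linarith
  refine ⟨C, hCpos, ?_⟩
  intro u hu x L hL0 h
  have h1 := main u hu x L h
  have h2 : -(μ * L) ≤ -((Real.sqrt 2 - e) * L) := by
    have : Real.sqrt 2 - e ≤ μ := by rw [hμ]; linarith [min_le_left e 1]
    nlinarith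
  exact h1.trans (mul_le_mul_of_nonneg_left (Real.exp_le_exp.mpr h2) hCpos.le)

open LI

/-- (DEC) in the notation of `LI/Defs`. -/
theorem dec (e : ℝ) (he : 0 < e) : ∃ C : ℝ, 0 < C ∧ ∀ u : R3 → ℝ, Sol u →
    ∀ (x : R3) (L : ℝ), 0 ≤ L → (∀ y, eno (x - y) < L → u y ≠ 0) →
    ff u x ≤ C * Real.exp (-((Real.sqrt 2 - e) * L)) := by
  obtain ⟨C, hC, h⟩ := dec_psi 3 e he
  refine ⟨C, hC, ?_⟩
  intro u hu x L hL hz
  have h1 := h u hu x L hL hz
  unfold ff
  have hs : 1 ≤ Real.sqrt 2 := by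
    rw [show (1:ℝ) = Real.sqrt 1 by simp]
    exact Real.sqrt_le_sqrt (by norm_num)
  have h0 : 0 ≤ 1 - u x ^ 2 := by
    have := abs_le.mp (hu.bd x)
    nlinarith
  exact (div_le_self h0 hs).trans h1

/-- `|φ| ≤ s` gives a lower bound for `1 - u²`. -/
lemma psi_ge_of_phi {u : R3 → ℝ} {x : R3} (hlt : |u x| < 1) {s : ℝ} (h : |phi u x| ≤ s) :
    Real.exp (-(Real.sqrt 2 * s)) ≤ 1 - u x ^ 2 := by
  have hb := abs_lt.mp hlt
  have h1 : 0 < 1 + u x := by linarith
  have h2 : 0 < 1 - u x := by linarith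
  have hs2 : Real.sqrt 2 * Real.sqrt 2 = 2 := Real.mul_self_sqrt (by norm_num)
  have hs0 : 0 < Real.sqrt 2 := by positivity
  have hph := abs_le.mp h
  unfold phi at hph
  have e1 : Real.log (1 + u x) - Real.log (1 - u x) ≤ Real.sqrt 2 * s := by
    have : Real.sqrt 2 * (Real.sqrt 2 / 2 * (Real.log (1 + u x) - Real.log (1 - u x)))
        ≤ Real.sqrt 2 * s := mul_le_mul_of_nonneg_left hph.2 hs0.le
    have e : Real.sqrt 2 * (Real.sqrt 2 / 2 * (Real.log (1 + u x) - Real.log (1 - u x)))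
        = (Real.sqrt 2 * Real.sqrt 2) / 2 * (Real.log (1 + u x) - Real.log (1 - u x)) := by ring
    rw [e, hs2] at this
    linarith
  have e2 : -(Real.sqrt 2 * s) ≤ Real.log (1 + u x) - Real.log (1 - u x) := by
    have : Real.sqrt 2 * (-s) ≤ Real.sqrt 2 * (Real.sqrt 2 / 2 * (Real.log (1 + u x) - Real.log (1 - u x))) :=
      mul_le_mul_of_nonneg_left hph.1 hs0.le
    have e : Real.sqrt 2 * (Real.sqrt 2 / 2 * (Real.log (1 + u x) - Real.log (1 - u x)))
        = (Real.sqrt 2 * Real.sqrt 2) / 2 * (Real.log (1 + u x) - Real.log (1 - u x)) := by ring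
    rw [e, hs2] at this
    linarith
  set c := Real.exp (-(Real.sqrt 2 * s)) with hc
  have hcpos : 0 < c := Real.exp_pos _
  -- `(1+u) c ≤ 1-u` and `(1-u) c ≤ 1+u`
  have f1 : (1 + u x) * c ≤ 1 - u x := by
    have : Real.exp (Real.log (1 + u x) + -(Real.sqrt 2 * s)) ≤ Real.exp (Real.log (1 - u x)) :=
      Real.exp_le_exp.mpr (by linarith)
    rwa [Real.exp_add, Real.exp_log h1, Real.exp_log h2] at this
  have f2 : (1 - u x) * c ≤ 1 + u x := by
    have : Real.exp (Real.log (1 - u x) + -(Real.sqrt 2 * s)) ≤ Real.exp (Real.log (1 + u x)) :=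
      Real.exp_le_exp.mpr (by linarith)
    rwa [Real.exp_add, Real.exp_log h1, Real.exp_log h2] at this
  have e3 : 1 - u x ^ 2 = (1 - u x) * (1 + u x) := by ring
  rw [e3]
  rcases le_or_gt 0 (u x) with h3 | h3
  · have g1 : c ≤ 1 - u x := by nlinarith
    nlinarith
  · have g1 : c ≤ 1 + u x := by nlinarith
    nlinarith

/-- (D3): points with bounded `φ` are at bounded distance from the zero set. -/
theorem near_zero (s : ℝ) : ∃ C : ℝ, 0 < C ∧ ∀ u : R3 → ℝ, Sol u → (∀ x, |u x| < 1) →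
    ∀ x, |phi u x| ≤ s → ∃ y, u y = 0 ∧ eno (x - y) ≤ C := by
  have hs1 : 1 < Real.sqrt 2 := by
    rw [show (1:ℝ) = Real.sqrt 1 by simp]
    exact Real.sqrt_lt_sqrt (by norm_num) (by norm_num)
  obtain ⟨C, hC, h⟩ := dec_psi 3 (Real.sqrt 2 - 1) (by linarith)
  -- choose `L` with `C e^{-L} < e^{-√2 s}`
  set L := max 1 (Real.log (2 * C) + Real.sqrt 2 * s) with hL
  have hL1 : 1 ≤ L := le_max_left _ _
  refine ⟨L, by linarith, ?_⟩
  intro u hu hlt x hx
  by_contra hcon
  push Not at hcon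
  have h1 := h u hu x L (by linarith) (by
    intro y hy h0
    have := hcon y h0
    linarith)
  have h2 := psi_ge_of_phi (hlt x) hx
  have e : Real.sqrt 2 - (Real.sqrt 2 - 1) = 1 := by ring
  rw [e, one_mul] at h1
  have h3 : Real.exp (-L) ≤ Real.exp (-(Real.log (2 * C) + Real.sqrt 2 * s)) :=
    Real.exp_le_exp.mpr (neg_le_neg (le_max_right _ _))
  have h4 : Real.exp (-(Real.log (2 * C) + Real.sqrt 2 * s))
      = (2 * C)⁻¹ * Real.exp (-(Real.sqrt 2 * s)) := by
    rw [neg_add, Real.exp_add, Real.exp_neg, Real.exp_log (by positivity)]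
  rw [h4] at h3
  have h5 : C * Real.exp (-L) ≤ C * ((2 * C)⁻¹ * Real.exp (-(Real.sqrt 2 * s))) :=
    mul_le_mul_of_nonneg_left h3 hC.le
  have h6 : C * ((2 * C)⁻¹ * Real.exp (-(Real.sqrt 2 * s))) = Real.exp (-(Real.sqrt 2 * s)) / 2 := by
    field_simp
  have h7 := Real.exp_pos (-(Real.sqrt 2 * s))
  linarith

end Vale.Agent.P134.H291
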